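import Vale.Agent.P269.G2.BSpec
import Vale.Agent.P269.G1.H598.Ser

/-!
# Tools for series over a finite family of insertions, even dimension: recursion and WDVV
-/

namespace Vale.Agent.P269.G2.H410

open Finset.HasAntidiagonal (antidiagonal)
open Vale.Agent.P269.CI Vale.Agent.P269.G2
open Vale.Agent.P269.G1 (toSer Sym shf)
open Vale.Agent.P269.G1.H598 (coeff_toSer shf_congr toSer_add')

variable {X : CompleteIntersection} {F : ℕ → ℕ → List (Ins X) → ℂ} {n : ℕ} (E : Fam X n)

lemma par_even (he : Even X.dim) (a : Ix X) : par X a = false := by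
  cases a with
  | inl j => rfl
  | inr v =>
    have : X.dim % 2 = 0 := Nat.even_iff.1 he
    simp [par, this]

lemma sgn_even (he : Even X.dim) (a b : Ix X) : sgn (par X a) (par X b) = 1 := by
  rw [par_even he, par_even he]
  rfl

lemma sgnL_even (he : Even X.dim) (a : Bool) (L : List (Ins X)) : sgnL X a L = 1 := by
  rw [sgnL]
  apply List.prod_eq_one
  intro z hz
  obtain ⟨x, _, rfl⟩ := List.mem_map.1 hz
  rw [par_even he]
  simp [sgn]

lemma shuffle_e (he : Even X.dim) (L : List (Fin n)) : ∀ (A B : List (Ins X) → ℂ),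
    shuffle X (L.map E.e) A B =
      shf L (fun M => A (M.map E.e)) (fun M => B (M.map E.e)) := by
  induction L with
  | nil => intro A B; rfl
  | cons i L ih =>
    intro A B
    rw [List.map_cons, shuffle, shf, ih, ih]
    congr 1
    apply shf_congr
    · intro M
      rw [sgnL_even he, one_mul]
    · intro M
      rfl

lemma shuffle_congrE (he : Even X.dim) (L : List (Fin n)) {A A' B B' : List (Ins X) → ℂ}
    (hA : ∀ M : List (Fin n), A (M.map E.e) = A' (M.map E.e))
    (hB : ∀ M : List (Fin n), B (M.map E.e) = B' (M.map E.e)) :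
    shuffle X (L.map E.e) A B = shuffle X (L.map E.e) A' B' := by
  rw [shuffle_e E he, shuffle_e E he]
  exact shf_congr L hA hB

lemma sr_congr {A B : ℕ → List (Ins X) → ℂ}
    (h : ∀ d (L : List (Fin n)), A d (L.map E.e) = B d (L.map E.e)) : sr E A = sr E B := by
  unfold sr
  congr 1
  funext L
  ext d
  simpa using h d L

lemma sr_add (A B : ℕ → List (Ins X) → ℂ) :
    sr E (fun d L => A d L + B d L) = sr E A + sr E B := by
  rw [sr, sr, sr, ← toSer_add']
  congr 1

lemma sr_smul (c : ℂ) (A : ℕ → List (Ins X) → ℂ) :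
    sr E (fun d L => c * A d L) = c • sr E A := by
  refine MvPowerSeries.ext fun α => ?_
  rw [sr, coeff_toSer]
  have h1 : MvPowerSeries.coeff α (c • sr E A) = c • MvPowerSeries.coeff α (sr E A) := rfl
  rw [h1, sr, coeff_toSer, smul_comm]
  congr 1

lemma sr_zero : sr E (fun (_ : ℕ) (_ : List (Ins X)) => (0 : ℂ)) = 0 := by
  have := sr_smul E 0 (fun _ _ => 0)
  simpa using this

lemma sr_sum {ι : Type*} (s : Finset ι) (A : ι → ℕ → List (Ins X) → ℂ) :
    sr E (fun d L => ∑ i ∈ s, A i d L) = ∑ i ∈ s, sr E (A i) := by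
  classical
  induction s using Finset.induction_on with
  | empty => simpa using sr_zero E
  | insert a s ha ih =>
    rw [Finset.sum_insert ha, ← ih, ← sr_add]
    simp only [Finset.sum_insert ha]

lemma sr_swap (hF : IsGW X F) (he : Even X.dim) (g : ℕ) (P Q : List (Ins X)) (x y : Ins X) :
    sr E (cor F g (P ++ x :: y :: Q)) = sr E (cor F g (P ++ y :: x :: Q)) := by
  refine sr_congr E fun d L => ?_
  have h1 := hF.symm g d P (Q ++ L.map E.e) x y
  rw [sgn_even he, one_mul] at h1
  simpa [cor] using h1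

/-- topological recursion in genus zero -/
lemma trr_sr (hF : IsGW X F) (he : Even X.dim) (a : Ix X) (m : ℕ) (x y : Ins X) :
    sr E (cor F 0 [(a, m + 1), x, y]) = ∑ α, ∑ β, pairingInv X α β •
      (sr E (cor F 0 [(β, 0), x, y]) * sr E (cor F 0 [(a, m), (α, 0)])) := by
  have h1 : ∀ α β, pairingInv X α β •
      (sr E (cor F 0 [(β, 0), x, y]) * sr E (cor F 0 [(a, m), (α, 0)])) =
      sr E (fun d L => pairingInv X α β *
        mulS (cor F 0 [(β, 0), x, y]) (cor F 0 [(a, m), (α, 0)]) d L) := by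
    intro α β
    rw [← sr_mulS E he _ _ (symF_cor E hF he 0 _) (symF_cor E hF he 0 _), sr_smul]
  simp only [h1]
  simp only [← sr_sum]
  refine sr_congr E fun d L => ?_
  exact hF.trr d a m x y (L.map E.e)

/-! ### topological recursion -/

lemma SB_zero (c b : Ix X) : SB E F 0 c b = if c = b then 1 else 0 := by
  change (1 : Matrix _ _ _) c b = _
  rw [Matrix.one_apply]

lemma SB_succ (k : ℕ) (c b : Ix X) :
    SB E F (k + 1) c b = ∑ a : Ix X, pairingInv X a c • VB E F (b, k) (a, 0) := rfl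

/-- topological recursion -/
lemma trrB (hF : IsGW X F) (he : Even X.dim) (a : Ix X) (m : ℕ) (y z : Ins X) :
    sr E (cor F 0 [(a, m), y, z]) =
      ∑ i, SB E F m i a * sr E (cor F 0 [(i, 0), y, z]) := by
  cases m with
  | zero =>
    rw [Finset.sum_eq_single a]
    · rw [SB_zero, if_pos rfl, one_mul]
    · intro b _ hb
      rw [SB_zero, if_neg hb, zero_mul]
    · simp
  | succ m =>
    rw [trr_sr E hF he a m y z, Finset.sum_comm]
    refine Finset.sum_congr rfl fun k _ => ?_
    rw [SB_succ, Finset.sum_mul]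
    refine Finset.sum_congr rfl fun l _ => ?_
    rw [smul_mul_assoc, VB, mul_comm]

/-! ### WDVV -/

/-- one side of WDVV -/
noncomputable def wdB (F : ℕ → ℕ → List (Ins X) → ℂ) (a x y z : Ix X) (d : ℕ)
    (L : List (Ins X)) : ℂ :=
  ∑ α, ∑ β, pairingInv X α β * mulS (cor F 0 [(β, 0), (x, 0), (y, 0)])
    (cor F 0 [(a, 0), (α, 0), (z, 0)]) d L

/-- the symmetric side -/
noncomputable def wdB' (F : ℕ → ℕ → List (Ins X) → ℂ) (a x y z : Ix X) (d : ℕ)
    (L : List (Ins X)) : ℂ :=
  ∑ α, ∑ β, pairingInv X α β * mulS (cor F 0 [(β, 0), (x, 0), (y, 0), (z, 0)])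
    (cor F 0 [(a, 0), (α, 0)]) d L

lemma trr_wdB (hF : IsGW X F) (he : Even X.dim) (a x y z : Ix X) (d : ℕ) (L : List (Fin n)) :
    F 0 d ((a, 1) :: (x, 0) :: (y, 0) :: (z, 0) :: L.map E.e) =
      wdB' F a x y z d (L.map E.e) + wdB F a x y z d (L.map E.e) := by
  rw [hF.trr d a 0 (x, 0) (y, 0) ((z, 0) :: L.map E.e), wdB, wdB', ← Finset.sum_add_distrib]
  refine Finset.sum_congr rfl fun α _ => ?_
  rw [← Finset.sum_add_distrib]
  refine Finset.sum_congr rfl fun β _ => ?_
  rw [← mul_add, mulS, mulS, ← Finset.sum_add_distrib]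
  congr 1
  refine Finset.sum_congr rfl fun e _ => ?_
  rw [shuffle]
  congr 1
  apply shuffle_congrE E he
  · intro M
    rw [sgnL_even he, one_mul]
    rfl
  · intro M
    rfl

lemma wdB'_swap (hF : IsGW X F) (he : Even X.dim) (a x y z : Ix X) (d : ℕ) (L : List (Fin n)) :
    wdB' F a x y z d (L.map E.e) = wdB' F a x z y d (L.map E.e) := by
  rw [wdB', wdB']
  refine Finset.sum_congr rfl fun α _ => ?_
  refine Finset.sum_congr rfl fun β _ => ?_
  congr 1
  rw [mulS, mulS]
  refine Finset.sum_congr rfl fun e _ => ?_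
  apply shuffle_congrE E he
  · intro M
    have h := hF.symm 0 e.1 [(β, 0), (x, 0)] (M.map E.e) (y, 0) (z, 0)
    rw [sgn_even he, one_mul] at h
    exact h
  · intro M
    rfl

lemma wdB_swap (hF : IsGW X F) (he : Even X.dim) (a x y z : Ix X) (d : ℕ) (L : List (Fin n)) :
    wdB F a x y z d (L.map E.e) = wdB F a x z y d (L.map E.e) := by
  have h1 := trr_wdB E hF he a x y z d L
  have h2 := trr_wdB E hF he a x z y d L
  have h3 := hF.symm 0 d [(a, 1), (x, 0)] (L.map E.e) (y, 0) (z, 0)
  have h4 := wdB'_swap E hF he a x y z d L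
  rw [sgn_even he, one_mul] at h3
  simp only [List.cons_append, List.nil_append] at h3
  rw [h1, h2, h4] at h3
  linear_combination h3

/-- the series of one side of WDVV -/
noncomputable def WDB (F : ℕ → ℕ → List (Ins X) → ℂ) (a x y z : Ix X) : RB n :=
  ∑ α, ∑ β, pairingInv X α β • (sr E (cor F 0 [(β, 0), (x, 0), (y, 0)]) *
    sr E (cor F 0 [(a, 0), (α, 0), (z, 0)]))

lemma WDB_eq (hF : IsGW X F) (he : Even X.dim) (a x y z : Ix X) :
    WDB E F a x y z = sr E (wdB F a x y z) := by
  have h1 : wdB F a x y z = fun d L => ∑ α, ∑ β, pairingInv X α β *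
    mulS (cor F 0 [(β, 0), (x, 0), (y, 0)]) (cor F 0 [(a, 0), (α, 0), (z, 0)]) d L := rfl
  rw [h1, sr_sum, WDB]
  refine Finset.sum_congr rfl fun α _ => ?_
  rw [sr_sum]
  refine Finset.sum_congr rfl fun β _ => ?_
  rw [sr_smul]
  congr 1
  exact (sr_mulS E he _ _ (symF_cor E hF he 0 _) (symF_cor E hF he 0 _)).symm

lemma WDB_swap (hF : IsGW X F) (he : Even X.dim) (a x y z : Ix X) :
    WDB E F a x y z = WDB E F a x z y := by
  rw [WDB_eq E hF he, WDB_eq E hF he]
  exact sr_congr E fun d L => wdB_swap E hF he a x y z d L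

/-- the structure constants -/
noncomputable def qB (F : ℕ → ℕ → List (Ins X) → ℂ) (i j k : Ix X) : RB n :=
  ∑ l : Ix X, pairingInv X l k • sr E (cor F 0 [(i, 0), (j, 0), (l, 0)])

lemma qB_comm (hF : IsGW X F) (he : Even X.dim) (i j k : Ix X) :
    qB E F i j k = qB E F j i k := by
  unfold qB
  refine Finset.sum_congr rfl fun l _ => ?_
  exact congrArg _ (sr_swap E hF he 0 [] [(l, 0)] (i, 0) (j, 0))

/-- WDVV in terms of the structure constants -/
lemma WDB_q (hF : IsGW X F) (he : Even X.dim) (a x y z : Ix X) :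
    WDB E F a x y z = ∑ k, qB E F a z k * sr E (cor F 0 [(k, 0), (x, 0), (y, 0)]) := by
  rw [WDB, Finset.sum_comm]
  refine Finset.sum_congr rfl fun k _ => ?_
  rw [qB, Finset.sum_mul]
  refine Finset.sum_congr rfl fun l _ => ?_
  have e := sr_swap E hF he 0 [(a, 0)] [] (l, 0) (z, 0)
  simp only [List.cons_append, List.nil_append] at e
  rw [smul_mul_assoc, mul_comm, e]

/-- associativity of the structure constants -/
lemma qB_assoc (hF : IsGW X F) (he : Even X.dim) (i j l m : Ix X) :
    ∑ k, qB E F i j k * qB E F k l m = ∑ k, qB E F j l k * qB E F i k m := by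
  have e1 : ∀ i j l : Ix X, ∑ k, qB E F i j k * qB E F k l m =
      ∑ s : Ix X, pairingInv X s m • WDB E F i s l j := by
    intro i j l
    simp only [WDB_q E hF he]
    simp only [Finset.smul_sum]
    rw [Finset.sum_comm]
    refine Finset.sum_congr rfl fun k _ => ?_
    rw [show qB E F k l m = ∑ s : Ix X, pairingInv X s m •
      sr E (cor F 0 [(k, 0), (l, 0), (s, 0)]) from rfl, Finset.mul_sum]
    refine Finset.sum_congr rfl fun s _ => ?_
    have e := sr_swap E hF he 0 [(k, 0)] [] (l, 0) (s, 0)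
    simp only [List.cons_append, List.nil_append] at e
    rw [e, mul_smul_comm]
  have e2 : ∑ k, qB E F j l k * qB E F i k m = ∑ k, qB E F l j k * qB E F k i m := by
    refine Finset.sum_congr rfl fun k _ => ?_
    rw [qB_comm E hF he j l, qB_comm E hF he i k]
  -- `(e_i e_j) e_l = (e_l e_j) e_i`
  rw [e2, e1, e1]
  refine Finset.sum_congr rfl fun s _ => ?_
  congr 1
  -- WD(i; s, l | j) = WD(j; s, l | i) = WD(j; s, i | l) = WD(l; s, i | j)
  have sym : ∀ a x y z : Ix X, WDB E F a x y z = WDB E F z x y a := by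
    intro a x y z
    rw [WDB_q E hF he, WDB_q E hF he]
    exact Finset.sum_congr rfl fun k _ => by rw [qB_comm E hF he]
  rw [sym i s l j, WDB_swap E hF he j s l i, sym j s i l]

end Vale.Agent.P269.G2.H410
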