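import Vale.Agent.P269.G2.H410.BTools

/-!
# [G2, DB1] topological recursion for two-point functions
-/

namespace Vale.Agent.P269.G2.H410

open Finset.HasAntidiagonal (antidiagonal)
open Vale.Agent.P269.CI Vale.Agent.P269.G2

variable {X : CompleteIntersection} {F : ℕ → ℕ → List (Ins X) → ℂ} {n : ℕ} (E : Fam X n)

lemma wB_zero (i : Fin n) (c : Ix X) : wB E F i 0 c = SB E F (E.e i).2 c (E.e i).1 := by
  rw [wB, if_pos (Nat.zero_le _), Nat.sub_zero]

lemma trr_ins (hF : IsGW X F) (he : Even X.dim) (i : Fin n) (y z : Ins X) :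
    sr E (cor F 0 [E.e i, y, z]) =
      ∑ c, wB E F i 0 c * sr E (cor F 0 [(c, 0), y, z]) := by
  have h := trrB E hF he (E.e i).1 (E.e i).2 y z
  simp only [wB_zero]
  exact h

/-- **[DB1']** two-point functions depend only on the point of the small phase space -/
theorem pderiv_VB (hF : IsGW X F) (he : Even X.dim) (i : Fin n) (a b : Ins X) :
    MvPowerSeries.pderiv (PowerSeries ℂ) i (VB E F a b) =
      ∑ c, wB E F i 0 c * MvPowerSeries.pderiv (PowerSeries ℂ) (E.i0 c) (VB E F a b) := by
  rw [VB, pderiv_sr_cor E hF he, trr_ins E hF he]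
  refine Finset.sum_congr rfl fun c _ => ?_
  rw [pderiv_sr_cor E hF he, E.e_i0]

lemma pderiv_smulC (i : Fin n) (c : ℂ) (f : RB n) :
    MvPowerSeries.pderiv (PowerSeries ℂ) i (c • f) =
      c • MvPowerSeries.pderiv (PowerSeries ℂ) i f := by
  have : c • f = (PowerSeries.C c : PowerSeries ℂ) • f := by
    ext n m
    simp
  rw [this, Derivation.map_smul]
  ext n m
  simp

/-- **[DB1]** topological recursion for two-point functions -/
theorem dB_SB (hF : IsGW X F) (he : Even X.dim) (i : Fin n) (k : ℕ) :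
    dB i (SB E F (k + 1)) = CB E F (wB E F i 0) * SB E F k := by
  refine Matrix.ext fun c b => ?_
  change MvPowerSeries.pderiv (PowerSeries ℂ) i (∑ a : Ix X,
    pairingInv X a c • VB E F (b, k) (a, 0)) =
    ∑ d, (∑ j, wB E F i 0 j * ∑ a : Ix X,
      pairingInv X a c • sr E (cor F 0 [(j, 0), (d, 0), (a, 0)])) * SB E F k d b
  rw [map_sum]
  have e1 : ∀ a : Ix X, MvPowerSeries.pderiv (PowerSeries ℂ) i
      (pairingInv X a c • VB E F (b, k) (a, 0)) =
      ∑ d, ∑ j, pairingInv X a c • (wB E F i 0 j * SB E F k d b *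
        sr E (cor F 0 [(j, 0), (d, 0), (a, 0)])) := by
    intro a
    rw [pderiv_smulC, VB, pderiv_sr_cor E hF he]
    have e2 := sr_swap E hF he 0 [] [(a, 0)] (E.e i) (b, k)
    simp only [List.nil_append] at e2
    rw [e2, trrB E hF he, Finset.smul_sum]
    refine Finset.sum_congr rfl fun d _ => ?_
    have e3 := sr_swap E hF he 0 [] [(a, 0)] (d, 0) (E.e i)
    simp only [List.nil_append] at e3
    rw [e3, trr_ins E hF he, Finset.mul_sum, Finset.smul_sum]
    refine Finset.sum_congr rfl fun j _ => ?_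
    congr 1
    ring
  simp only [e1]
  rw [Finset.sum_comm]
  refine Finset.sum_congr rfl fun d _ => ?_
  rw [Finset.sum_comm, Finset.sum_mul]
  refine Finset.sum_congr rfl fun j _ => ?_
  rw [Finset.mul_sum, Finset.sum_mul]
  refine Finset.sum_congr rfl fun a _ => ?_
  rw [mul_smul_comm, smul_mul_assoc, mul_right_comm]

end Vale.Agent.P269.G2.H410
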