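import Vale.Agent.P269.G2.Model
import Vale.Agent.P269.G2.H410.BTools

/-!
# [G2, Z2, Z3] topological recursion for two-point functions, unitarity
-/

namespace Vale.Agent.P269.G2.H410

open Finset.HasAntidiagonal (antidiagonal)
open Vale.Agent.P269.CI Vale.Agent.P269.G2
open Vale.Agent.P269.G1 (toSer lst)
open Vale.Agent.P269.H597 (coh)

variable {X : CompleteIntersection} {F : ℕ → ℕ → List (Ins X) → ℂ} {n : ℕ} (E : Fam X n)

/-- the constant series -/
theorem sr_const (c : ℂ) :
    sr E (fun d L => if d = 0 ∧ L = [] then c else 0) = cb n c := by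
  unfold cb
  ext α m
  change (PowerSeries.coeff m) ((((∏ i, (α i).factorial : ℕ) : ℚ)⁻¹ •
    (PowerSeries.mk fun d => if d = 0 ∧ (lst α).map E.e = [] then c else 0) :
      PowerSeries ℂ)) = _
  rw [MvPowerSeries.coeff_C]
  by_cases hα : α = 0
  · subst hα
    rw [if_pos rfl, G1.H598.lst_zero]
    simp [PowerSeries.coeff_C]
  · rw [if_neg hα]
    have : lst α ≠ [] := by
      intro h
      apply hα
      ext j
      have := G1.H598.count_lst α j
      rw [h] at this
      simpa using this.symm
    simp [this]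

/-- **[Z2]** topological recursion, from `trrB` -/
theorem W_trr (hF : IsGW X F) (he : Even X.dim) (x a b : Ix X) (m n : ℕ) :
    sr (E0 X) (cor F 0 [(x, 0), (a, m), (b, n)]) =
      ∑ i, ∑ j, SB (E0 X) F m i a * SB (E0 X) F n j b *
        sr (E0 X) (cor F 0 [(x, 0), (i, 0), (j, 0)]) := by
  have e1 := sr_swap (E0 X) hF he 0 [] [(b, n)] (x, 0) (a, m)
  simp only [List.nil_append] at e1
  rw [e1, trrB (E0 X) hF he]
  refine Finset.sum_congr rfl fun i _ => ?_
  have e2 := sr_swap (E0 X) hF he 0 [(i, 0)] [] (x, 0) (b, n)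
  have e3 := sr_swap (E0 X) hF he 0 [] [(x, 0)] (i, 0) (b, n)
  simp only [List.nil_append, List.cons_append] at e2 e3
  rw [e2, e3, trrB (E0 X) hF he, Finset.mul_sum]
  refine Finset.sum_congr rfl fun j _ => ?_
  rw [mul_assoc]
  congr 2
  have e4 := sr_swap (E0 X) hF he 0 [] [(x, 0)] (j, 0) (i, 0)
  have e5 := sr_swap (E0 X) hF he 0 [(i, 0)] [] (j, 0) (x, 0)
  have e6 := sr_swap (E0 X) hF he 0 [] [(j, 0)] (i, 0) (x, 0)
  simp only [List.nil_append, List.cons_append] at e4 e5 e6
  rw [e4, e5, e6]

/-- telescoping of an alternating sum -/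
lemma tele {M : Type*} [CommRing M] (w P : ℕ → ℕ → M) (g : M) (h00 : P 0 0 = g)
    (h10 : ∀ m, P (m + 1) 0 = w m 0) (h01 : ∀ n, P 0 (n + 1) = w 0 n)
    (h11 : ∀ m n, P (m + 1) (n + 1) = w m (n + 1) + w (m + 1) n) (p : ℕ) :
    ∑ e ∈ antidiagonal p, (-1) ^ e.1 * P e.1 e.2 = if p = 0 then g else 0 := by
  cases p with
  | zero => simp [h00]
  | succ p =>
    rw [Finset.Nat.sum_antidiagonal_eq_sum_range_succ (fun i j => (-1) ^ i * P i j) (p + 1),
      if_neg (Nat.succ_ne_zero p)]
    have key : ∀ j ≤ p, ∑ k ∈ Finset.range (j + 1), (-1) ^ k * P k (p + 1 - k) =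
        (-1) ^ j * w j (p - j) := by
      intro j
      induction j with
      | zero =>
        intro _
        simp [h01]
      | succ j ih =>
        intro hj
        rw [Finset.sum_range_succ, ih (by omega)]
        obtain ⟨r, hr⟩ : ∃ r, p = j + 1 + r := ⟨p - (j + 1), by omega⟩
        have e1 : p + 1 - (j + 1) = r + 1 := by omega
        have e2 : p - j = r + 1 := by omega
        have e3 : p - (j + 1) = r := by omega
        rw [e1, e2, e3, h11]
        ring
    rw [Finset.sum_range_succ, key p le_rfl]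
    have e1 : p + 1 - (p + 1) = 0 := by omega
    have e2 : p - p = 0 := by omega
    rw [e1, e2, h10]
    ring

lemma lowerSum_cons (T : Ix X → Ix X → ℂ) (G : List (Ins X) → ℂ) (x : Ins X) (L : List (Ins X)) :
    lowerSum X T G (x :: L) =
      (if x.2 = 0 then 0 else ∑ b, T x.1 b * G ((b, x.2 - 1) :: L)) +
        lowerSum X T (fun M => G (x :: M)) L := by
  unfold lowerSum
  exact Fin.sum_univ_succ (n := L.length) _

theorem lowerSum_zero (T : Ix X → Ix X → ℂ) (G : List (Ins X) → ℂ) (L : List (Ins X))
    (h : ∀ x ∈ L, x.2 = 0) : lowerSum X T G L = 0 := by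
  unfold lowerSum
  refine Finset.sum_eq_zero fun j _ => ?_
  rw [if_pos]
  exact h _ (List.get_mem L j)

/-- the string equation for two-point functions -/
lemma W_string (hF : IsGW X F) (a b : Ix X) (m n : ℕ) :
    sr (E0 X) (cor F 0 [(one X, 0), (a, m), (b, n)]) =
      (if m = 0 then 0 else VB (E0 X) F (a, m - 1) (b, n)) +
        (if n = 0 then 0 else VB (E0 X) F (a, m) (b, n - 1)) +
        (if m = 0 ∧ n = 0 then cb (nx X) (pairing X a b) else 0) := by
  classical
  have e0 : sr (E0 X) (cor F 0 [(one X, 0), (a, m), (b, n)]) =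
      sr (E0 X) (fun d L => ((if m = 0 then 0 else cor F 0 [(a, m - 1), (b, n)] d L) +
        (if n = 0 then 0 else cor F 0 [(a, m), (b, n - 1)] d L)) +
        (if m = 0 ∧ n = 0 then (if d = 0 ∧ L = [] then pairing X a b else 0) else 0)) := by
    refine sr_congr (E0 X) fun d L => ?_
    have h2 := hF.string 0 d ([(a, m), (b, n)] ++ L.map (E0 X).e)
    change F 0 d ((one X, 0) :: ([(a, m), (b, n)] ++ L.map (E0 X).e)) = _
    rw [h2]
    simp only [List.cons_append, List.nil_append]
    rw [lowerSum_cons, lowerSum_cons, lowerSum_zero]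
    · congr 1
      · rw [add_zero]
        congr 1
        · by_cases hm : m = 0
          · simp [hm]
          · simp [hm, cor]
        · by_cases hn : n = 0
          · simp [hn]
          · simp [hn, cor]
      · by_cases hd : d = 0
        · subst hd
          cases L with
          | nil =>
            cases m with
            | zero =>
              cases n with
              | zero => simp [pairTerm]
              | succ n => simp [pairTerm]
            | succ m => simp [pairTerm]
          | cons c L => simp [pairTerm]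
        · simp [hd]
    · intro x hx
      obtain ⟨i, _, rfl⟩ := List.mem_map.1 hx
      rfl
  rw [e0, sr_add, sr_add]
  congr 1
  · congr 1
    · by_cases hm : m = 0
      · simp only [hm, if_true]
        exact sr_zero (E0 X)
      · simp only [hm, if_false]
        rfl
    · by_cases hn : n = 0
      · simp only [hn, if_true]
        exact sr_zero (E0 X)
      · simp only [hn, if_false]
        rfl
  · by_cases h : m = 0 ∧ n = 0
    · simp only [h, and_self, if_true]
      exact sr_const (E0 X) _
    · simp only [h, if_false]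
      exact sr_zero (E0 X)

/-- the alternating sum of the string equations -/
lemma alt_string (hF : IsGW X F) (a b : Ix X) (p : ℕ) :
    ∑ e ∈ antidiagonal p, (-1) ^ e.1 * sr (E0 X) (cor F 0 [(one X, 0), (a, e.1), (b, e.2)]) =
      if p = 0 then cb (nx X) (pairing X a b) else 0 := by
  refine tele (fun m n => VB (E0 X) F (a, m) (b, n))
    (fun m n => sr (E0 X) (cor F 0 [(one X, 0), (a, m), (b, n)])) _ ?_ ?_ ?_ ?_ p
  · rw [W_string hF]
    simp
  · intro m
    rw [W_string hF]
    simp
  · intro n
    rw [W_string hF]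
    simp
  · intro m n
    rw [W_string hF]
    simp

lemma cor_pairing (hF : IsGW X F) (i j : Ix X) :
    sr (E0 X) (cor F 0 [(one X, 0), (i, 0), (j, 0)]) = cb (nx X) (pairing X i j) := by
  have := W_string hF i j 0 0
  simpa using this

/-- the pairing -/
noncomputable def gM (X : CompleteIntersection) : OB X (nx X) :=
  Matrix.of fun a b => cb (nx X) (pairing X a b)

/-- the inverse pairing -/
noncomputable def hM (X : CompleteIntersection) : OB X (nx X) :=
  Matrix.of fun a b => cb (nx X) (pairingInv X a b)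

/-- two-point functions -/
noncomputable def vM (F : ℕ → ℕ → List (Ins X) → ℂ) (m : ℕ) : OB X (nx X) :=
  Matrix.of fun a b => VB (E0 X) F (a, m) (b, 0)

lemma smul_cb (c : ℂ) (f : RB n) : c • f = cb n c * f := by
  ext α m
  rw [cb, MvPowerSeries.coeff_C_mul, PowerSeries.coeff_C_mul]
  rfl

lemma gM_hM : gM X * hM X = 1 := by
  refine Matrix.ext fun a c => ?_
  rw [Matrix.mul_apply, Matrix.one_apply]
  have h := (coh X).eta_inv a c
  have h2 : ∑ b, gM X a b * hM X b c = cb (nx X) (∑ b, pairing X a b * pairingInv X b c) := by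
    unfold cb
    rw [map_sum, map_sum]
    refine Finset.sum_congr rfl fun b _ => ?_
    rw [map_mul, map_mul]
    rfl
  rw [h2]
  have h3 : ∑ b, pairing X a b * pairingInv X b c = if a = c then 1 else 0 := h
  rw [h3]
  unfold cb
  split_ifs <;> simp

lemma hM_gM : hM X * gM X = 1 := mul_eq_one_comm.1 gM_hM

lemma gM_transpose (he : Even X.dim) : (gM X).transpose = gM X := by
  refine Matrix.ext fun a b => ?_
  change cb (nx X) (pairing X b a) = cb (nx X) (pairing X a b)
  congr 1
  have h := (coh X).eta_symm' b a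
  have h2 : (coh X).sn b = 1 := by
    change H597.sg ℂ (par X b) (par X b) = 1
    rw [par_even he]
    rfl
  rw [h2, one_mul] at h
  exact h

lemma hM_transpose (he : Even X.dim) : (hM X).transpose = hM X := by
  refine Matrix.ext fun a b => ?_
  change cb (nx X) (pairingInv X b a) = cb (nx X) (pairingInv X a b)
  congr 1
  have h := (coh X).etai_symm b a
  have h2 : (coh X).sn b = 1 := by
    change H597.sg ℂ (par X b) (par X b) = 1
    rw [par_even he]
    rfl
  rw [h2, one_mul] at h
  exact h

lemma STB_succ (m : ℕ) : STB F (m + 1) = (hM X).transpose * vM F m := by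
  refine Matrix.ext fun c b => ?_
  rw [Matrix.mul_apply]
  change ∑ a : Ix X, pairingInv X a c • VB (E0 X) F (a, m) (b, 0) = _
  refine Finset.sum_congr rfl fun a _ => ?_
  rw [smul_cb]
  rfl

lemma SB_succ' (m : ℕ) : SB (E0 X) F (m + 1) = (hM X).transpose * (vM F m).transpose := by
  refine Matrix.ext fun c b => ?_
  rw [Matrix.mul_apply]
  change ∑ a : Ix X, pairingInv X a c • VB (E0 X) F (b, m) (a, 0) = _
  refine Finset.sum_congr rfl fun a _ => ?_
  rw [smul_cb]
  rfl

lemma gM_STB (he : Even X.dim) (m : ℕ) :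
    gM X * STB F m = (SB (E0 X) F m).transpose * gM X := by
  cases m with
  | zero =>
    change gM X * 1 = (1 : OB X (nx X)).transpose * gM X
    rw [Matrix.transpose_one, one_mul, mul_one]
  | succ m =>
    rw [STB_succ, SB_succ', Matrix.transpose_mul, Matrix.transpose_transpose,
      Matrix.transpose_transpose, hM_transpose he, ← mul_assoc, gM_hM, one_mul, mul_assoc,
      hM_gM, mul_one]

lemma pair_ST_SS (hF : IsGW X F) (he : Even X.dim) (m n : ℕ) (a b : Ix X) :
    (gM X * (STB F m * SB (E0 X) F n)) a b =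
      sr (E0 X) (cor F 0 [(one X, 0), (a, m), (b, n)]) := by
  rw [← mul_assoc, gM_STB he, W_trr hF he, Finset.sum_comm, Matrix.mul_apply]
  refine Finset.sum_congr rfl fun j _ => ?_
  rw [Matrix.mul_apply, Finset.sum_mul]
  refine Finset.sum_congr rfl fun i _ => ?_
  rw [cor_pairing hF]
  change SB (E0 X) F m i a * cb (nx X) (pairing X i j) * SB (E0 X) F n j b = _
  ring

/-- `T S = 1` -/
lemma ST_SS (hF : IsGW X F) (he : Even X.dim) (p : ℕ) :
    ∑ e ∈ antidiagonal p, (-1) ^ e.1 * (STB F e.1 * SB (E0 X) F e.2) =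
      if p = 0 then 1 else 0 := by
  have h1 : gM X * ∑ e ∈ antidiagonal p, (-1) ^ e.1 * (STB F e.1 * SB (E0 X) F e.2) =
      if p = 0 then gM X else 0 := by
    refine Matrix.ext fun a b => ?_
    rw [Finset.mul_sum, Matrix.sum_apply]
    have h2 : ∀ e : ℕ × ℕ, (gM X * ((-1) ^ e.1 * (STB F e.1 * SB (E0 X) F e.2))) a b =
        (-1) ^ e.1 * sr (E0 X) (cor F 0 [(one X, 0), (a, e.1), (b, e.2)]) := by
      intro e
      rw [← pair_ST_SS hF he]
      rcases Nat.even_or_odd e.1 with h | h
      · rw [h.neg_one_pow, h.neg_one_pow, one_mul, one_mul]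
      · rw [h.neg_one_pow, h.neg_one_pow, neg_one_mul, neg_one_mul, mul_neg, Matrix.neg_apply]
    rw [Finset.sum_congr rfl fun e _ => h2 e, alt_string hF]
    split_ifs
    · rfl
    · rfl
  have h3 := congrArg (fun M => hM X * M) h1
  simp only [← mul_assoc (hM X) (gM X), hM_gM, one_mul] at h3
  rw [h3]
  split_ifs
  · exact hM_gM
  · rw [mul_zero]

/-- **[Z3]** unitarity: string equation and topological recursion, then a power series with
constant term one has a two-sided inverse -/
theorem SZ_STB (hF : IsGW X F) (he : Even X.dim) (p : ℕ) :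
    ∑ e ∈ antidiagonal p, (-1) ^ e.2 * (SZ F e.1 * STB F e.2) =
      if p = 0 then 1 else 0 := by
  let S : PowerSeries (OB X (nx X)) := PowerSeries.mk fun n => SB (E0 X) F n
  let T : PowerSeries (OB X (nx X)) := PowerSeries.mk fun n => (-1) ^ n * STB F n
  have hTS : T * S = 1 := by
    ext n : 1
    rw [PowerSeries.coeff_mul, PowerSeries.coeff_one, ← ST_SS hF he n]
    refine Finset.sum_congr rfl fun e _ => ?_
    rw [PowerSeries.coeff_mk, PowerSeries.coeff_mk, mul_assoc]
  have hS0 : PowerSeries.constantCoeff S = ((1 : (OB X (nx X))ˣ) : OB X (nx X)) := by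
    rw [← PowerSeries.coeff_zero_eq_constantCoeff_apply, PowerSeries.coeff_mk]
    rfl
  have h2 := PowerSeries.mul_invOfUnit S 1 hS0
  have h3 : T = PowerSeries.invOfUnit S 1 := by
    calc T = T * (S * PowerSeries.invOfUnit S 1) := by rw [h2, mul_one]
      _ = PowerSeries.invOfUnit S 1 := by rw [← mul_assoc, hTS, one_mul]
  rw [← h3] at h2
  have h4 := congrArg (PowerSeries.coeff p) h2
  rw [PowerSeries.coeff_mul, PowerSeries.coeff_one] at h4
  rw [← h4]
  refine Finset.sum_congr rfl fun e _ => ?_
  rw [PowerSeries.coeff_mk, PowerSeries.coeff_mk]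
  have h5 : SZ F (e.1 : ℤ) = SB (E0 X) F e.1 := by
    rw [SZ, if_neg (by omega), Int.toNat_natCast]
  rw [h5, ← mul_assoc, ← mul_assoc]
  congr 1
  rcases Nat.even_or_odd e.2 with h | h
  · rw [h.neg_one_pow, one_mul, mul_one]
  · rw [h.neg_one_pow, neg_one_mul, mul_neg_one]

end Vale.Agent.P269.G2.H410
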